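import Vale.Agent.Lib.P154.Inv

/-!
The polynomial inequality behind the subadditivity of the second moment.
-/

namespace Vale.Agent.Lib.P154

/-- the quantity `Y` of the cyclic sum -/
noncomputable def Yf (A B C E : ℝ) : ℝ :=
  -2 / 3 + A + C + 3 * A * C - 9 / 4 * A * C * (A + C) - 27 / 8 * A ^ 2 * C ^ 2
    - 9 * (C * B + A * E) + 27 / 2 * (A ^ 2 * E + C ^ 2 * B)

/-- half the sum of the two triple products -/
noncomputable def E0f (A B C E : ℝ) : ℝ := 1 - 27 / 4 * A * C + 81 / 2 * B * E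

/-- the right side of the first kernel inequality -/
noncomputable def T1f (A B C E : ℝ) : ℝ :=
  27 / 5 * C * (B - 1 / 10 * A ^ 2) + 13 / 2 * (A - 3 * B) * (E - 7 / 50 * C ^ 2) + 1 / 100 * A * C

/-- the polynomial of the first kernel inequality -/
noncomputable def P1f (A B C E : ℝ) : ℝ :=
  (A + C - 2 / 3 - T1f A B C E) * E0f A B C E - Yf A B C E

theorem cert1 {u x v y : ℝ} (h1 : Atoms u x) (h2 : Atoms v y) :
    0 ≤ P1f (2 / 3 * u) (2 / 9 * u * x) (2 / 3 * (25 / 49 * v)) (2 / 9 * (125 / 343 * v) * y) := by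
  obtain ⟨hu, het, hka, hmu, hom, hbh, hch⟩ := h1
  obtain ⟨hu2, het2, hka2, hmu2, hom2, hbh2, hch2⟩ := h2
  have key : P1f (2 / 3 * u) (2 / 9 * u * x) (2 / 3 * (25 / 49 * v)) (2 / 9 * (125 / 343 * v) * y)
      = 100 / 441 * u * v * ((147938137/1890355320)*(((1+2*x)*(1-3*u+2*u*x))*((v-2*(1)*y+(1)^2))) + (16468/4862025)*(((u-2*(1)*x+(1)^2))*(v*(1+2*y)*(1+2*y))) + (51160172719/604913702400)*(((1-u)*(1+2*x))*((1-v)*(1+2*y))) + (206147/10001880)*(((u-2*(1)*x+(1)^2)*(1-u))*((v-2*(1)*y+(1)^2)*v*(1+2*y))) + (29989733/393824025)*(((u-2*(1)*x+(1)^2)*u*(1-x))*((1-y)*(1-3*v+2*v*y))) + (703729661/2800526400)*(((1-u)*(1+2*x))*((1-y)*(1-3*v+2*v*y))) + (12025/691488)*(((u-2*(1)*x+(1)^2))*(v*(1-3*v+2*v*y))) + (8683517/525098700)*(((u-2*(1)*x+(1)^2))*((1-y)*(1-3*v+2*v*y))) + (559423397/4725888300)*(((1-x)*(1-3*u+2*u*x))*((v-2*(1)*y+(1)^2))) + (57/5488)*((u*(1+2*x)*(1+x-2*u))*((v-2*(1)*y+(1)^2)))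 + (553699091/21604060800)*(((1+2*x)*(1-3*u+2*u*x))*(v*(1+2*y)*(1+2*y))) + (4577241239/151228425600)*(((u-2*(1)*x+(1)^2)*u*(1+2*x))*((1+2*y))) + (42539011339/201637900800)*(((1+2*x)*(1-3*u+2*u*x))*((1-v)*(1+2*y))) + (123247/5834430)*(((u-2*(1)*x+(1)^2))*(v*(1+2*y)*(1+y-2*v))) + (239975209/453685276800)*(((u-2*(1)*x+(1)^2)*u*(1+2*x))*(v*(1+2*y)*(1+2*y))) + (11676374749/120982740480)*(((1-u)*(1+2*x))*((1+2*y)*(1-3*v+2*v*y))) + (136495066459/453685276800)*(((1-x)*(1-3*u+2*u*x))*(v*(1+2*y)*(1+y-2*v))) + (25/24696)*((u*(1+2*x)*(1+2*x))*((1-y)*(1-3*v+2*v*y))) + (970203665341/3629482214400)*(((1-x)*(1-3*u+2*u*x))*((v-2*(1)*y+(1)^2)*v*(1+2*y))) + (64699741/3150592200)*((u*(1-3*u+2*u*x))*((v-2*(1)*y+(1)^2))) + (13002937/1181472075)*(((1-x)*(1-3*u+2*u*x))*((1-3*v+2*v*y)*(1+y-2*v))) + (386347811/75614212800)*(((1+2*x)*(1-3*u+2*u*x))*((1-3*v+2*v*y)*(1+y-2*v)))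 + (22196813/466754400)*(((u-2*(1)*x+(1)^2))*((1+2*y)*(1-3*v+2*v*y))) + (14423413/600112800)*((u*(1+2*x)*(1+x-2*u))*((1-y)*(1-3*v+2*v*y))) + (28711259/155584800)*(((1-u)*(1+2*x))*((v-2*(1)*y+(1)^2))) + (758900129/680527915200)*((u*(1+2*x)*(1+x-2*u))*((v-2*(1)*y+(1)^2)*v*(1+2*y))) + (11108633/3150592200)*((u*(1-3*u+2*u*x))*((1-3*v+2*v*y)*(1+y-2*v))) + (25/172872)*(((1-u)*(1+2*x))*(v*(1-3*v+2*v*y))) + (5/6174)*((u*(1+2*x)*(1+2*x))*((v-2*(1)*y+(1)^2))) + (109331/4862025)*((u*(1+2*x)*(1+x-2*u))*((1+2*y))) + (20877940861/57610828800)*(((1-x)*(1-3*u+2*u*x))*((1-v)*(1-v)*(1+2*y))) + (17/1715) + (662971/746807040)*(((1-u)*(1+2*x))*(v*(1+2*y)*(1+y-2*v))) + (1176886009/151228425600)*(((u-2*(1)*x+(1)^2)*u*(1+2*x))*((1+2*y)*(1-3*v+2*v*y))) + (54521/15240960)*(((1+2*x)*(1-3*u+2*u*x))*(v*(1+2*y)*(1+y-2*v))) + (65/24696)*((u*(1+2*x)*(1+2*x))*((1-3*v+2*v*y)*(1+y-2*v)))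 + (19080500837/302456851200)*(((1-x)*(1-3*u+2*u*x))*(v*(1+2*y)*(1+2*y))) + (5/18522)*((u*(1+2*x)*(1+2*x))*((v-2*(1)*y+(1)^2)*v*(1+2*y))) + (20/9261)*((u*(1+2*x)*(1+2*x))*((v-2*(-1/2)*y+(-1/2)^2)*v*(1-y))) + (283677979/75614212800)*(((1-3*u+2*u*x)*(1+x-2*u))*((v-2*(-1/2)*y+(-1/2)^2)*v*(1+2*y))) + (11108633/1181472075)*(((1-3*u+2*u*x)*(1+x-2*u))*((v-2*(1)*y+(1)^2)*v*(1-y))) + (628045091/340263957600)*((u*(1+2*x)*(1+x-2*u))*(v*(1+2*y)*(1+y-2*v))) + (537393739/6301184400)*(((u-2*(1)*x+(1)^2)*u*(1+2*x))*((1-y)*(1-3*v+2*v*y))) + (1049225621/134425267200)*(((1-3*u+2*u*x)*(1+x-2*u))*((1+2*y)*(1-3*v+2*v*y))) + (720903019/40327580160)*((u*(1-3*u+2*u*x))*(v*(1+2*y)*(1+2*y))) + (804029/155584800)*(((u-2*(1)*x+(1)^2))*((v-2*(1)*y+(1)^2))) + (25/1372)*(((1+2*x))*(v*(1-3*v+2*v*y))) + (1351323221/67212633600)*((u*(1-3*u+2*u*x))*((1+2*y)))) := by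
    unfold P1f T1f E0f Yf
    ring
  rw [key]
  have hs : 0 ≤ (147938137/1890355320)*(((1+2*x)*(1-3*u+2*u*x))*((v-2*(1)*y+(1)^2))) + (16468/4862025)*(((u-2*(1)*x+(1)^2))*(v*(1+2*y)*(1+2*y))) + (51160172719/604913702400)*(((1-u)*(1+2*x))*((1-v)*(1+2*y))) + (206147/10001880)*(((u-2*(1)*x+(1)^2)*(1-u))*((v-2*(1)*y+(1)^2)*v*(1+2*y))) + (29989733/393824025)*(((u-2*(1)*x+(1)^2)*u*(1-x))*((1-y)*(1-3*v+2*v*y))) + (703729661/2800526400)*(((1-u)*(1+2*x))*((1-y)*(1-3*v+2*v*y))) + (12025/691488)*(((u-2*(1)*x+(1)^2))*(v*(1-3*v+2*v*y))) + (8683517/525098700)*(((u-2*(1)*x+(1)^2))*((1-y)*(1-3*v+2*v*y))) + (559423397/4725888300)*(((1-x)*(1-3*u+2*u*x))*((v-2*(1)*y+(1)^2))) + (57/5488)*((u*(1+2*x)*(1+x-2*u))*((v-2*(1)*y+(1)^2))) + (553699091/21604060800)*(((1+2*x)*(1-3*u+2*u*x))*(v*(1+2*y)*(1+2*y))) + (4577241239/151228425600)*(((u-2*(1)*x+(1)^2)*u*(1+2*x))*((1+2*y)))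 + (42539011339/201637900800)*(((1+2*x)*(1-3*u+2*u*x))*((1-v)*(1+2*y))) + (123247/5834430)*(((u-2*(1)*x+(1)^2))*(v*(1+2*y)*(1+y-2*v))) + (239975209/453685276800)*(((u-2*(1)*x+(1)^2)*u*(1+2*x))*(v*(1+2*y)*(1+2*y))) + (11676374749/120982740480)*(((1-u)*(1+2*x))*((1+2*y)*(1-3*v+2*v*y))) + (136495066459/453685276800)*(((1-x)*(1-3*u+2*u*x))*(v*(1+2*y)*(1+y-2*v))) + (25/24696)*((u*(1+2*x)*(1+2*x))*((1-y)*(1-3*v+2*v*y))) + (970203665341/3629482214400)*(((1-x)*(1-3*u+2*u*x))*((v-2*(1)*y+(1)^2)*v*(1+2*y))) + (64699741/3150592200)*((u*(1-3*u+2*u*x))*((v-2*(1)*y+(1)^2))) + (13002937/1181472075)*(((1-x)*(1-3*u+2*u*x))*((1-3*v+2*v*y)*(1+y-2*v))) + (386347811/75614212800)*(((1+2*x)*(1-3*u+2*u*x))*((1-3*v+2*v*y)*(1+y-2*v))) + (22196813/466754400)*(((u-2*(1)*x+(1)^2))*((1+2*y)*(1-3*v+2*v*y))) + (14423413/600112800)*((u*(1+2*x)*(1+x-2*u))*((1-y)*(1-3*v+2*v*y)))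 + (28711259/155584800)*(((1-u)*(1+2*x))*((v-2*(1)*y+(1)^2))) + (758900129/680527915200)*((u*(1+2*x)*(1+x-2*u))*((v-2*(1)*y+(1)^2)*v*(1+2*y))) + (11108633/3150592200)*((u*(1-3*u+2*u*x))*((1-3*v+2*v*y)*(1+y-2*v))) + (25/172872)*(((1-u)*(1+2*x))*(v*(1-3*v+2*v*y))) + (5/6174)*((u*(1+2*x)*(1+2*x))*((v-2*(1)*y+(1)^2))) + (109331/4862025)*((u*(1+2*x)*(1+x-2*u))*((1+2*y))) + (20877940861/57610828800)*(((1-x)*(1-3*u+2*u*x))*((1-v)*(1-v)*(1+2*y))) + (17/1715) + (662971/746807040)*(((1-u)*(1+2*x))*(v*(1+2*y)*(1+y-2*v))) + (1176886009/151228425600)*(((u-2*(1)*x+(1)^2)*u*(1+2*x))*((1+2*y)*(1-3*v+2*v*y))) + (54521/15240960)*(((1+2*x)*(1-3*u+2*u*x))*(v*(1+2*y)*(1+y-2*v))) + (65/24696)*((u*(1+2*x)*(1+2*x))*((1-3*v+2*v*y)*(1+y-2*v))) + (19080500837/302456851200)*(((1-x)*(1-3*u+2*u*x))*(v*(1+2*y)*(1+2*y))) + (5/18522)*((u*(1+2*x)*(1+2*x))*((v-2*(1)*y+(1)^2)*v*(1+2*y)))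 + (20/9261)*((u*(1+2*x)*(1+2*x))*((v-2*(-1/2)*y+(-1/2)^2)*v*(1-y))) + (283677979/75614212800)*(((1-3*u+2*u*x)*(1+x-2*u))*((v-2*(-1/2)*y+(-1/2)^2)*v*(1+2*y))) + (11108633/1181472075)*(((1-3*u+2*u*x)*(1+x-2*u))*((v-2*(1)*y+(1)^2)*v*(1-y))) + (628045091/340263957600)*((u*(1+2*x)*(1+x-2*u))*(v*(1+2*y)*(1+y-2*v))) + (537393739/6301184400)*(((u-2*(1)*x+(1)^2)*u*(1+2*x))*((1-y)*(1-3*v+2*v*y))) + (1049225621/134425267200)*(((1-3*u+2*u*x)*(1+x-2*u))*((1+2*y)*(1-3*v+2*v*y))) + (720903019/40327580160)*((u*(1-3*u+2*u*x))*(v*(1+2*y)*(1+2*y))) + (804029/155584800)*(((u-2*(1)*x+(1)^2))*((v-2*(1)*y+(1)^2))) + (25/1372)*(((1+2*x))*(v*(1-3*v+2*v*y))) + (1351323221/67212633600)*((u*(1-3*u+2*u*x))*((1+2*y))) :=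
    (add_nonneg (add_nonneg (add_nonneg (add_nonneg (add_nonneg (add_nonneg (add_nonneg (add_nonneg (add_nonneg (add_nonneg (add_nonneg (add_nonneg (add_nonneg (add_nonneg (add_nonneg (add_nonneg (add_nonneg (add_nonneg (add_nonneg (add_nonneg (add_nonneg (add_nonneg (add_nonneg (add_nonneg (add_nonneg (add_nonneg (add_nonneg (add_nonneg (add_nonneg (add_nonneg (add_nonneg (add_nonneg (add_nonneg (add_nonneg (add_nonneg (add_nonneg (add_nonneg (add_nonneg (add_nonneg (add_nonneg (add_nonneg (add_nonneg (add_nonneg (add_nonneg (add_nonneg (add_nonneg (add_nonneg (mul_nonneg (by norm_num) (mul_nonneg (mul_nonneg hmu hbh) (tan_nn hom2 (1)))) (mul_nonneg (by norm_num) (mul_nonneg (tan_nn hom (1)) (mul_nonneg (mul_nonneg hu2 hmu2) hmu2)))) (mul_nonneg (by norm_num) (mul_nonneg (mul_nonneg het hmu) (mul_nonneg het2 hmu2)))) (mul_nonneg (by norm_num)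 (mul_nonneg (mul_nonneg (tan_nn hom (1)) het) (mul_nonneg (mul_nonneg (tan_nn hom2 (1)) hu2) hmu2)))) (mul_nonneg (by norm_num) (mul_nonneg (mul_nonneg (mul_nonneg (tan_nn hom (1)) hu) hka) (mul_nonneg hka2 hbh2)))) (mul_nonneg (by norm_num) (mul_nonneg (mul_nonneg het hmu) (mul_nonneg hka2 hbh2)))) (mul_nonneg (by norm_num) (mul_nonneg (tan_nn hom (1)) (mul_nonneg hu2 hbh2)))) (mul_nonneg (by norm_num) (mul_nonneg (tan_nn hom (1)) (mul_nonneg hka2 hbh2)))) (mul_nonneg (by norm_num) (mul_nonneg (mul_nonneg hka hbh) (tan_nn hom2 (1))))) (mul_nonneg (by norm_num) (mul_nonneg (mul_nonneg (mul_nonneg hu hmu) hch) (tan_nn hom2 (1))))) (mul_nonneg (by norm_num) (mul_nonneg (mul_nonneg hmu hbh) (mul_nonneg (mul_nonneg hu2 hmu2) hmu2)))) (mul_nonneg (by norm_num) (mul_nonneg (mul_nonneg (mul_nonneg (tan_nn hom (1)) hu) hmu) hmu2))) (mul_nonneg (by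 norm_num) (mul_nonneg (mul_nonneg hmu hbh) (mul_nonneg het2 hmu2)))) (mul_nonneg (by norm_num) (mul_nonneg (tan_nn hom (1)) (mul_nonneg (mul_nonneg hu2 hmu2) hch2)))) (mul_nonneg (by norm_num) (mul_nonneg (mul_nonneg (mul_nonneg (tan_nn hom (1)) hu) hmu) (mul_nonneg (mul_nonneg hu2 hmu2) hmu2)))) (mul_nonneg (by norm_num) (mul_nonneg (mul_nonneg het hmu) (mul_nonneg hmu2 hbh2)))) (mul_nonneg (by norm_num) (mul_nonneg (mul_nonneg hka hbh) (mul_nonneg (mul_nonneg hu2 hmu2) hch2)))) (mul_nonneg (by norm_num) (mul_nonneg (mul_nonneg (mul_nonneg hu hmu) hmu) (mul_nonneg hka2 hbh2)))) (mul_nonneg (by norm_num) (mul_nonneg (mul_nonneg hka hbh) (mul_nonneg (mul_nonneg (tan_nn hom2 (1)) hu2) hmu2)))) (mul_nonneg (by norm_num) (mul_nonneg (mul_nonneg hu hbh) (tan_nn hom2 (1))))) (mul_nonneg (by norm_num) (mul_nonneg (mul_nonneg hka hbh) (mul_nonneg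 hbh2 hch2)))) (mul_nonneg (by norm_num) (mul_nonneg (mul_nonneg hmu hbh) (mul_nonneg hbh2 hch2)))) (mul_nonneg (by norm_num) (mul_nonneg (tan_nn hom (1)) (mul_nonneg hmu2 hbh2)))) (mul_nonneg (by norm_num) (mul_nonneg (mul_nonneg (mul_nonneg hu hmu) hch) (mul_nonneg hka2 hbh2)))) (mul_nonneg (by norm_num) (mul_nonneg (mul_nonneg het hmu) (tan_nn hom2 (1))))) (mul_nonneg (by norm_num) (mul_nonneg (mul_nonneg (mul_nonneg hu hmu) hch) (mul_nonneg (mul_nonneg (tan_nn hom2 (1)) hu2) hmu2)))) (mul_nonneg (by norm_num) (mul_nonneg (mul_nonneg hu hbh) (mul_nonneg hbh2 hch2)))) (mul_nonneg (by norm_num) (mul_nonneg (mul_nonneg het hmu) (mul_nonneg hu2 hbh2)))) (mul_nonneg (by norm_num) (mul_nonneg (mul_nonneg (mul_nonneg hu hmu) hmu) (tan_nn hom2 (1))))) (mul_nonneg (by norm_num) (mul_nonneg (mul_nonneg (mul_nonneg hu hmu) hch) hmu2))) (mul_nonneg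 (by norm_num) (mul_nonneg (mul_nonneg hka hbh) (mul_nonneg (mul_nonneg het2 het2) hmu2)))) (by norm_num : (0:ℝ) ≤ (17/1715))) (mul_nonneg (by norm_num) (mul_nonneg (mul_nonneg het hmu) (mul_nonneg (mul_nonneg hu2 hmu2) hch2)))) (mul_nonneg (by norm_num) (mul_nonneg (mul_nonneg (mul_nonneg (tan_nn hom (1)) hu) hmu) (mul_nonneg hmu2 hbh2)))) (mul_nonneg (by norm_num) (mul_nonneg (mul_nonneg hmu hbh) (mul_nonneg (mul_nonneg hu2 hmu2) hch2)))) (mul_nonneg (by norm_num) (mul_nonneg (mul_nonneg (mul_nonneg hu hmu) hmu) (mul_nonneg hbh2 hch2)))) (mul_nonneg (by norm_num) (mul_nonneg (mul_nonneg hka hbh) (mul_nonneg (mul_nonneg hu2 hmu2) hmu2)))) (mul_nonneg (by norm_num) (mul_nonneg (mul_nonneg (mul_nonneg hu hmu) hmu) (mul_nonneg (mul_nonneg (tan_nn hom2 (1)) hu2) hmu2)))) (mul_nonneg (by norm_num) (mul_nonneg (mul_nonneg (mul_nonneg hu hmu) hmu)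 (mul_nonneg (mul_nonneg (tan_nn hom2 (-1/2)) hu2) hka2)))) (mul_nonneg (by norm_num) (mul_nonneg (mul_nonneg hbh hch) (mul_nonneg (mul_nonneg (tan_nn hom2 (-1/2)) hu2) hmu2)))) (mul_nonneg (by norm_num) (mul_nonneg (mul_nonneg hbh hch) (mul_nonneg (mul_nonneg (tan_nn hom2 (1)) hu2) hka2)))) (mul_nonneg (by norm_num) (mul_nonneg (mul_nonneg (mul_nonneg hu hmu) hch) (mul_nonneg (mul_nonneg hu2 hmu2) hch2)))) (mul_nonneg (by norm_num) (mul_nonneg (mul_nonneg (mul_nonneg (tan_nn hom (1)) hu) hmu) (mul_nonneg hka2 hbh2)))) (mul_nonneg (by norm_num) (mul_nonneg (mul_nonneg hbh hch) (mul_nonneg hmu2 hbh2)))) (mul_nonneg (by norm_num) (mul_nonneg (mul_nonneg hu hbh) (mul_nonneg (mul_nonneg hu2 hmu2) hmu2)))) (mul_nonneg (by norm_num) (mul_nonneg (tan_nn hom (1)) (tan_nn hom2 (1))))) (mul_nonneg (by norm_num) (mul_nonneg hmu (mul_nonneg hu2 hbh2))))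 (mul_nonneg (by norm_num) (mul_nonneg (mul_nonneg hu hbh) hmu2)))
  positivity

end Vale.Agent.Lib.P154
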