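import Vale.Agent.Lib.P154.Defs2

/-!
The polynomial inequality behind the closure of the class.
-/

namespace Vale.Agent.Lib.P154

set_option maxRecDepth 100000 in
set_option maxHeartbeats 4000000 in
theorem cert2 {u x v y : ℝ} (h1 : Atoms u x) (h2 : Atoms v y) :
    0 ≤ P2f (2 / 3 * u) (2 / 9 * u * x) (2 / 3 * (25 / 49 * v)) (2 / 9 * (125 / 343 * v) * y) := by
  obtain ⟨hu, het, hka, hmu, hom, hbh, hch⟩ := h1
  obtain ⟨hu2, het2, hka2, hmu2, hom2, hbh2, hch2⟩ := h2
  have key : P2f (2 / 3 * u) (2 / 9 * u * x) (2 / 3 * (25 / 49 * v)) (2 / 9 * (125 / 343 * v) * y)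
      = 100 / 441 * u * v * ((25771850865585368692807036086914261978193799/35029194813853901539634333080522429450569375)*(((u-2*(3/8)*x+(3/8)^2)*(1-u))*(v*(1-3*v+2*v*y))) + (3955255063241102127893703986670698758856190149/7713224644448606669115598779283967960571975000)*((u*(1-3*u+2*u*x))*((v-2*(3/4)*y+(3/4)^2)*v*(1-y))) + (56176764565742683790153738244272072802060338/75062560315401217584930713743976634536934375)*(((u-2*(1)*x+(1)^2)*u*(1+2*x))*((v-2*(5/8)*y+(5/8)^2)*(1-v))) + (171891078821674129051242919122377868797987/129978459420608168978235002154072094436250)*(((x-(5/8))^2*u)*((1-y)*(1-3*v+2*v*y))) + (23948008164642805987741100857594025660743225319/2824754269789178620156112619613328710893914400000)*(((u-2*(3/8)*x+(3/8)^2)*u*(1+2*x))*((1+2*y))) + (336456648870947735235283503996433437511293743131/12711394214051303790702506788259979199022614800000)*(((u-2*(-1/8)*x+(-1/8)^2)*u*(1+2*x))*(v*(1+2*y)*(1+y-2*v))) + (51074086407325248685803457068922751713514939/339677040619189348263120805629308406793400000)*((u*u*(1+2*x))*(v*(1-3*v+2*v*y)))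 + (78601889393532944168270683456432879651541653/57648046322228135105226788155374055324365600000)*(((u-2*(5/8)*x+(5/8)^2)*u*(1+2*x))*((1+2*y)*(1-3*v+2*v*y))) + (19273957798800982253276268469707497775369058417/44837369361732993970731946343068709696728800000)*(((1-x)*(1-3*u+2*u*x))*((1-y)*(1-3*v+2*v*y))) + (645487933851628434557459101219252210388282597633/12711394214051303790702506788259979199022614800000)*((u*(1-3*u+2*u*x))*(v*(v-y^2))) + (15922373041812095788077975327425015304761027/35029194813853901539634333080522429450569375)*(((u-2*(1/2)*x+(1/2)^2))*((v-2*(7/8)*y+(7/8)^2)*v*(1+2*y))) + (20417295656962776545417454528338172023238859/143301251511220506298504089874864484115965625)*((u*(1+2*x)*(1+2*x))*((v-2*(3/8)*y+(3/8)^2)*v*(1-y))) + (196181661094697329304891131498823311971113/4534523600498886930697001046022320964475000)*(((1-x)*(1-3*u+2*u*x))*((1-3*v+2*v*y)*(1+y-2*v))) + (10936518361092692453090390449339011169316920226909/12711394214051303790702506788259979199022614800000)*((u*(1-3*u+2*u*x))*((v-2*(3/4)*y+(3/4)^2)*(1-v)))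 + (300136830001099118426802951410657860476689798909/3177848553512825947675626697064994799755653700000)*((u*(u-x^2))*(v*(1+2*y)*(1+y-2*v))) + (13633726729421268292648104182403718727534776999/89674738723465987941463892686137419393457600000)*(((1-x)*(1-3*u+2*u*x))*((v-2*(1)*y+(1)^2)*v*(1+2*y))) + (1755731844342569577476195592060781825920943/1766177889774146296116016793975920812633750)*(((u-2*(5/8)*x+(5/8)^2)*(1-u))*((1-y)*(1-3*v+2*v*y))) + (1336426434110712374188423071853052873023349927/56747295598443320494207619590446335709922387500)*(((u-2*(7/8)*x+(7/8)^2)*u*(1+2*x))*((v-2*(5/8)*y+(5/8)^2)*v*(1+2*y))) + (82733941716454582107225414464203193923276957/11034196366363978984984814920364565276929353125)*((u*(1+2*x)*(1+x-2*u))*((v-2*(3/8)*y+(3/8)^2)*v*(1+2*y))) + (83179888676582397530708382628106918988118112/135112608567722191652875284739157942166481875)*(((u-2*(1/4)*x+(1/4)^2)*u*(1-x))*((v-2*(7/8)*y+(7/8)^2)*v*(1+2*y))) + (113762645255034794491272023545464687218338779229/907956729575093127907321913447141371358758200000)*(((u-2*(1/8)*x+(1/8)^2)*u*(1+2*x))*((v-2*(1)*y+(1)^2)*v*(1+2*y)))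 + (375889307472626136352409807280707681281235591/233527965425692676930895553870149529670462500)*(((u-2*(1/4)*x+(1/4)^2)*(1-u))*((v-2*(3/4)*y+(3/4)^2)*v*(1+2*y))) + (54886512497244124601227705710603074878981471/450375361892407305509584282463859807221606250)*(((u-2*(1)*x+(1)^2)*u*(1-x))*((v-2*(7/8)*y+(7/8)^2)*(1-v))) + (38154091939808391306680734041958426554298823/300250241261604870339722854975906538147737500)*(((u-2*(1)*x+(1)^2)*(1-u))*((v-2*(7/8)*y+(7/8)^2)*(1-v))) + (240140148642598303492062394333749701200097653/247264904568380481456242351156628913768725000)*(((1-3*u+2*u*x)*(1+x-2*u))*((v-2*(7/8)*y+(7/8)^2)*(1-v))) + (114656110212305189840904180085767435897489819/934111861702770707723582215480598118681850000)*(((1-x)*(1-3*u+2*u*x))*(v*(1+2*y)*(1+y-2*v))) + (25048446797194487117019016665386859046863637/367296411640409841386457084727807998122475000)*(((u-2*(1)*x+(1)^2)*u*(1+2*x))*((v-2*(3/4)*y+(3/4)^2)*v*(1-y))) + (1027508156487935164227434151310565733464013/33361137917956096704413650552878504238637500)*(((u-2*(3/8)*x+(3/8)^2)*(1-u))*(v*(1+2*y)*(1+2*y)))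 + (30195945689633736056907655436868471591651641/96080077203713558508711313592290092207276000)*(((u-2*(1)*x+(1)^2)*(1-u))*((1-y)*(1-3*v+2*v*y))) + (231317799601626787065712634448598992779852587757/2118565702341883965117084464709996533170435800000)*((u*(u-x^2))*(v*(1+2*y)*(1+2*y))) + (231957182219982610533815825989001702645143993/1576313766623425569283544988623509325275621875)*(((u-2*(1)*x+(1)^2)*u*(1-x))*((v-2*(3/4)*y+(3/4)^2)*v*(1+2*y))) + (1390323499069526741712884583073464544737346/9007507237848146110191685649277196144432125)*((u*(1+2*x)*(1+x-2*u))*((v-2*(1/2)*y+(1/2)^2)*(1-v))) + (8331143699575950414313064590912784633255322/8340284479489024176103412638219626059659375)*(((u-2*(3/8)*x+(3/8)^2)*(1-u))*(v*(1+2*y)*(1+y-2*v))) + (2431006990846211956947944528684741361440431674071/8474262809367535860468337858839986132681743200000)*((u*(1-3*u+2*u*x))*((1-y)*(1-3*v+2*v*y))) + (5101070453322552969109838729254043614320179/1471814908145121913430013994979934010528125)*(((u-2*(3/4)*x+(3/4)^2)*(1-u))*((y-(7/8))^2*v))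 + (290986589349763621077647288146517063005265264611/706188567447294655039028154903332177723478600000)*((u*(1-3*u+2*u*x))*((v-2*(1/2)*y+(1/2)^2)*v*(1+2*y))) + (75734050531/666887648000) + (54347979033502829918107018904116782336236121/93411186170277070772358221548059811868185000)*(((u-2*(1)*x+(1)^2))*((v-2*(7/8)*y+(7/8)^2)*v*(1-y))) + (12976834512281442677602785416141092131425227443/29891579574488662647154630895379139797819200000)*(((1-x)*(1-3*u+2*u*x))*((1-v)*(1-v)*(1+2*y))) + (12069854337829948427015705585473753789531/55221820420244282317332468805917273975000)*((u*(1+2*x)*(1+x-2*u))*((y-(3/8))^2*v)) + (149052266354321468953853677671937921513427149/44136785465455915939939259681458261107717412500)*(((u-2*(3/8)*x+(3/8)^2)*u*(1+2*x))*((1-v)*(1-v)*(1+2*y))) + (787385889680162065981189071899608907856888613/11529609264445627021045357631074811064873120000)*(((u-2*(1/4)*x+(1/4)^2)*u*(1+2*x))*((1+2*y)*(1-3*v+2*v*y))) + (1237529434474872571630908612389491409528608339601/1059282851170941982558542232354998266585217900000)*((u*(1-3*u+2*u*x))*((v-2*(5/8)*y+(5/8)^2)*(1-v)))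 + (49548241116575242200840586963106614840246/294362981629024382686002798995986802105625)*(((1-u)*(1-u)*(1+2*x))*(v*(v-y^2))) + (1695270198171001856809394725128667288605331/6672227583591219340882730110575700847727500)*(((u-2*(3/8)*x+(3/8)^2)*(1-u))*((1+2*y)*(1-3*v+2*v*y))) + (953702297527402196824934201363581580987155993/124621511902463762653946144982940972539437400000)*(((u-2*(-1/4)*x+(-1/4)^2)*u*(1+2*x))*(v*(1+2*y)*(1+2*y))) + (853124269777488125470277749914732045139923077/498486047609855050615784579931763890157749600000)*((u*(1+2*x)*(1+2*x))*((v-2*(-1/2)*y+(-1/2)^2)*v*(1+2*y))) + (22891463552912206496627565193975896830167/2506727431683157544580246470114247535556250)*(((u-2*(-1/2)*x+(-1/2)^2)*u*(1+2*x))*((v-2*(1)*y+(1)^2)*v*(1-y))) + (15278807850659313889687516906012630661661/216630765701013614963725003590120157393750)*((u*u*(1+2*x))*((v-2*(-3/8)*y+(-3/8)^2)*(1-v)))) := by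
    simp only [P2f, LBf, PP_Nq0, PP_Nq1, PP_Nq2, PP_Nq3, PP_J0, PP_J1, PP_J2]
    ring
  rw [key]
  have hs : 0 ≤ (25771850865585368692807036086914261978193799/35029194813853901539634333080522429450569375)*(((u-2*(3/8)*x+(3/8)^2)*(1-u))*(v*(1-3*v+2*v*y))) + (3955255063241102127893703986670698758856190149/7713224644448606669115598779283967960571975000)*((u*(1-3*u+2*u*x))*((v-2*(3/4)*y+(3/4)^2)*v*(1-y))) + (56176764565742683790153738244272072802060338/75062560315401217584930713743976634536934375)*(((u-2*(1)*x+(1)^2)*u*(1+2*x))*((v-2*(5/8)*y+(5/8)^2)*(1-v))) + (171891078821674129051242919122377868797987/129978459420608168978235002154072094436250)*(((x-(5/8))^2*u)*((1-y)*(1-3*v+2*v*y))) + (23948008164642805987741100857594025660743225319/2824754269789178620156112619613328710893914400000)*(((u-2*(3/8)*x+(3/8)^2)*u*(1+2*x))*((1+2*y))) + (336456648870947735235283503996433437511293743131/12711394214051303790702506788259979199022614800000)*(((u-2*(-1/8)*x+(-1/8)^2)*u*(1+2*x))*(v*(1+2*y)*(1+y-2*v))) + (51074086407325248685803457068922751713514939/339677040619189348263120805629308406793400000)*((u*u*(1+2*x))*(v*(1-3*v+2*v*y)))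 + (78601889393532944168270683456432879651541653/57648046322228135105226788155374055324365600000)*(((u-2*(5/8)*x+(5/8)^2)*u*(1+2*x))*((1+2*y)*(1-3*v+2*v*y))) + (19273957798800982253276268469707497775369058417/44837369361732993970731946343068709696728800000)*(((1-x)*(1-3*u+2*u*x))*((1-y)*(1-3*v+2*v*y))) + (645487933851628434557459101219252210388282597633/12711394214051303790702506788259979199022614800000)*((u*(1-3*u+2*u*x))*(v*(v-y^2))) + (15922373041812095788077975327425015304761027/35029194813853901539634333080522429450569375)*(((u-2*(1/2)*x+(1/2)^2))*((v-2*(7/8)*y+(7/8)^2)*v*(1+2*y))) + (20417295656962776545417454528338172023238859/143301251511220506298504089874864484115965625)*((u*(1+2*x)*(1+2*x))*((v-2*(3/8)*y+(3/8)^2)*v*(1-y))) + (196181661094697329304891131498823311971113/4534523600498886930697001046022320964475000)*(((1-x)*(1-3*u+2*u*x))*((1-3*v+2*v*y)*(1+y-2*v))) + (10936518361092692453090390449339011169316920226909/12711394214051303790702506788259979199022614800000)*((u*(1-3*u+2*u*x))*((v-2*(3/4)*y+(3/4)^2)*(1-v)))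 + (300136830001099118426802951410657860476689798909/3177848553512825947675626697064994799755653700000)*((u*(u-x^2))*(v*(1+2*y)*(1+y-2*v))) + (13633726729421268292648104182403718727534776999/89674738723465987941463892686137419393457600000)*(((1-x)*(1-3*u+2*u*x))*((v-2*(1)*y+(1)^2)*v*(1+2*y))) + (1755731844342569577476195592060781825920943/1766177889774146296116016793975920812633750)*(((u-2*(5/8)*x+(5/8)^2)*(1-u))*((1-y)*(1-3*v+2*v*y))) + (1336426434110712374188423071853052873023349927/56747295598443320494207619590446335709922387500)*(((u-2*(7/8)*x+(7/8)^2)*u*(1+2*x))*((v-2*(5/8)*y+(5/8)^2)*v*(1+2*y))) + (82733941716454582107225414464203193923276957/11034196366363978984984814920364565276929353125)*((u*(1+2*x)*(1+x-2*u))*((v-2*(3/8)*y+(3/8)^2)*v*(1+2*y))) + (83179888676582397530708382628106918988118112/135112608567722191652875284739157942166481875)*(((u-2*(1/4)*x+(1/4)^2)*u*(1-x))*((v-2*(7/8)*y+(7/8)^2)*v*(1+2*y))) + (113762645255034794491272023545464687218338779229/907956729575093127907321913447141371358758200000)*(((u-2*(1/8)*x+(1/8)^2)*u*(1+2*x))*((v-2*(1)*y+(1)^2)*v*(1+2*y)))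 + (375889307472626136352409807280707681281235591/233527965425692676930895553870149529670462500)*(((u-2*(1/4)*x+(1/4)^2)*(1-u))*((v-2*(3/4)*y+(3/4)^2)*v*(1+2*y))) + (54886512497244124601227705710603074878981471/450375361892407305509584282463859807221606250)*(((u-2*(1)*x+(1)^2)*u*(1-x))*((v-2*(7/8)*y+(7/8)^2)*(1-v))) + (38154091939808391306680734041958426554298823/300250241261604870339722854975906538147737500)*(((u-2*(1)*x+(1)^2)*(1-u))*((v-2*(7/8)*y+(7/8)^2)*(1-v))) + (240140148642598303492062394333749701200097653/247264904568380481456242351156628913768725000)*(((1-3*u+2*u*x)*(1+x-2*u))*((v-2*(7/8)*y+(7/8)^2)*(1-v))) + (114656110212305189840904180085767435897489819/934111861702770707723582215480598118681850000)*(((1-x)*(1-3*u+2*u*x))*(v*(1+2*y)*(1+y-2*v))) + (25048446797194487117019016665386859046863637/367296411640409841386457084727807998122475000)*(((u-2*(1)*x+(1)^2)*u*(1+2*x))*((v-2*(3/4)*y+(3/4)^2)*v*(1-y))) + (1027508156487935164227434151310565733464013/33361137917956096704413650552878504238637500)*(((u-2*(3/8)*x+(3/8)^2)*(1-u))*(v*(1+2*y)*(1+2*y)))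 + (30195945689633736056907655436868471591651641/96080077203713558508711313592290092207276000)*(((u-2*(1)*x+(1)^2)*(1-u))*((1-y)*(1-3*v+2*v*y))) + (231317799601626787065712634448598992779852587757/2118565702341883965117084464709996533170435800000)*((u*(u-x^2))*(v*(1+2*y)*(1+2*y))) + (231957182219982610533815825989001702645143993/1576313766623425569283544988623509325275621875)*(((u-2*(1)*x+(1)^2)*u*(1-x))*((v-2*(3/4)*y+(3/4)^2)*v*(1+2*y))) + (1390323499069526741712884583073464544737346/9007507237848146110191685649277196144432125)*((u*(1+2*x)*(1+x-2*u))*((v-2*(1/2)*y+(1/2)^2)*(1-v))) + (8331143699575950414313064590912784633255322/8340284479489024176103412638219626059659375)*(((u-2*(3/8)*x+(3/8)^2)*(1-u))*(v*(1+2*y)*(1+y-2*v))) + (2431006990846211956947944528684741361440431674071/8474262809367535860468337858839986132681743200000)*((u*(1-3*u+2*u*x))*((1-y)*(1-3*v+2*v*y))) + (5101070453322552969109838729254043614320179/1471814908145121913430013994979934010528125)*(((u-2*(3/4)*x+(3/4)^2)*(1-u))*((y-(7/8))^2*v))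 + (290986589349763621077647288146517063005265264611/706188567447294655039028154903332177723478600000)*((u*(1-3*u+2*u*x))*((v-2*(1/2)*y+(1/2)^2)*v*(1+2*y))) + (75734050531/666887648000) + (54347979033502829918107018904116782336236121/93411186170277070772358221548059811868185000)*(((u-2*(1)*x+(1)^2))*((v-2*(7/8)*y+(7/8)^2)*v*(1-y))) + (12976834512281442677602785416141092131425227443/29891579574488662647154630895379139797819200000)*(((1-x)*(1-3*u+2*u*x))*((1-v)*(1-v)*(1+2*y))) + (12069854337829948427015705585473753789531/55221820420244282317332468805917273975000)*((u*(1+2*x)*(1+x-2*u))*((y-(3/8))^2*v)) + (149052266354321468953853677671937921513427149/44136785465455915939939259681458261107717412500)*(((u-2*(3/8)*x+(3/8)^2)*u*(1+2*x))*((1-v)*(1-v)*(1+2*y))) + (787385889680162065981189071899608907856888613/11529609264445627021045357631074811064873120000)*(((u-2*(1/4)*x+(1/4)^2)*u*(1+2*x))*((1+2*y)*(1-3*v+2*v*y))) + (1237529434474872571630908612389491409528608339601/1059282851170941982558542232354998266585217900000)*((u*(1-3*u+2*u*x))*((v-2*(5/8)*y+(5/8)^2)*(1-v)))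 + (49548241116575242200840586963106614840246/294362981629024382686002798995986802105625)*(((1-u)*(1-u)*(1+2*x))*(v*(v-y^2))) + (1695270198171001856809394725128667288605331/6672227583591219340882730110575700847727500)*(((u-2*(3/8)*x+(3/8)^2)*(1-u))*((1+2*y)*(1-3*v+2*v*y))) + (953702297527402196824934201363581580987155993/124621511902463762653946144982940972539437400000)*(((u-2*(-1/4)*x+(-1/4)^2)*u*(1+2*x))*(v*(1+2*y)*(1+2*y))) + (853124269777488125470277749914732045139923077/498486047609855050615784579931763890157749600000)*((u*(1+2*x)*(1+2*x))*((v-2*(-1/2)*y+(-1/2)^2)*v*(1+2*y))) + (22891463552912206496627565193975896830167/2506727431683157544580246470114247535556250)*(((u-2*(-1/2)*x+(-1/2)^2)*u*(1+2*x))*((v-2*(1)*y+(1)^2)*v*(1-y))) + (15278807850659313889687516906012630661661/216630765701013614963725003590120157393750)*((u*u*(1+2*x))*((v-2*(-3/8)*y+(-3/8)^2)*(1-v))) :=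
    (add_nonneg (add_nonneg (add_nonneg (add_nonneg (add_nonneg (add_nonneg (add_nonneg (add_nonneg (add_nonneg (add_nonneg (add_nonneg (add_nonneg (add_nonneg (add_nonneg (add_nonneg (add_nonneg (add_nonneg (add_nonneg (add_nonneg (add_nonneg (add_nonneg (add_nonneg (add_nonneg (add_nonneg (add_nonneg (add_nonneg (add_nonneg (add_nonneg (add_nonneg (add_nonneg (add_nonneg (add_nonneg (add_nonneg (add_nonneg (add_nonneg (add_nonneg (add_nonneg (add_nonneg (add_nonneg (add_nonneg (add_nonneg (add_nonneg (add_nonneg (add_nonneg (add_nonneg (add_nonneg (add_nonneg (add_nonneg (mul_nonneg (by norm_num) (mul_nonneg (mul_nonneg (tan_nn hom (3/8)) het) (mul_nonneg hu2 hbh2))) (mul_nonneg (by norm_num) (mul_nonneg (mul_nonneg hu hbh) (mul_nonneg (mul_nonneg (tan_nn hom2 (3/4)) hu2) hka2)))) (mul_nonneg (by norm_num) (mul_nonneg (mul_nonneg (mul_nonneg (tan_nn hom (1)) hu) hmu) (mul_nonneg (tan_nn hom2 (5/8)) het2)))) (mul_nonneg (by norm_num) (mul_nonneg (mul_nonneg (sq_nonneg (x-(5/8))) hu) (mul_nonneg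 hka2 hbh2)))) (mul_nonneg (by norm_num) (mul_nonneg (mul_nonneg (mul_nonneg (tan_nn hom (3/8)) hu) hmu) hmu2))) (mul_nonneg (by norm_num) (mul_nonneg (mul_nonneg (mul_nonneg (tan_nn hom (-1/8)) hu) hmu) (mul_nonneg (mul_nonneg hu2 hmu2) hch2)))) (mul_nonneg (by norm_num) (mul_nonneg (mul_nonneg (mul_nonneg hu hu) hmu) (mul_nonneg hu2 hbh2)))) (mul_nonneg (by norm_num) (mul_nonneg (mul_nonneg (mul_nonneg (tan_nn hom (5/8)) hu) hmu) (mul_nonneg hmu2 hbh2)))) (mul_nonneg (by norm_num) (mul_nonneg (mul_nonneg hka hbh) (mul_nonneg hka2 hbh2)))) (mul_nonneg (by norm_num) (mul_nonneg (mul_nonneg hu hbh) (mul_nonneg hu2 hom2)))) (mul_nonneg (by norm_num) (mul_nonneg (tan_nn hom (1/2)) (mul_nonneg (mul_nonneg (tan_nn hom2 (7/8)) hu2) hmu2)))) (mul_nonneg (by norm_num) (mul_nonneg (mul_nonneg (mul_nonneg hu hmu) hmu) (mul_nonneg (mul_nonneg (tan_nn hom2 (3/8)) hu2) hka2)))) (mul_nonneg (by norm_num) (mul_nonneg (mul_nonneg hka hbh) (mul_nonneg hbh2 hch2)))) (mul_nonneg (by norm_num) (mul_nonneg (mul_nonneg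 hu hbh) (mul_nonneg (tan_nn hom2 (3/4)) het2)))) (mul_nonneg (by norm_num) (mul_nonneg (mul_nonneg hu hom) (mul_nonneg (mul_nonneg hu2 hmu2) hch2)))) (mul_nonneg (by norm_num) (mul_nonneg (mul_nonneg hka hbh) (mul_nonneg (mul_nonneg (tan_nn hom2 (1)) hu2) hmu2)))) (mul_nonneg (by norm_num) (mul_nonneg (mul_nonneg (tan_nn hom (5/8)) het) (mul_nonneg hka2 hbh2)))) (mul_nonneg (by norm_num) (mul_nonneg (mul_nonneg (mul_nonneg (tan_nn hom (7/8)) hu) hmu) (mul_nonneg (mul_nonneg (tan_nn hom2 (5/8)) hu2) hmu2)))) (mul_nonneg (by norm_num) (mul_nonneg (mul_nonneg (mul_nonneg hu hmu) hch) (mul_nonneg (mul_nonneg (tan_nn hom2 (3/8)) hu2) hmu2)))) (mul_nonneg (by norm_num) (mul_nonneg (mul_nonneg (mul_nonneg (tan_nn hom (1/4)) hu) hka) (mul_nonneg (mul_nonneg (tan_nn hom2 (7/8)) hu2) hmu2)))) (mul_nonneg (by norm_num) (mul_nonneg (mul_nonneg (mul_nonneg (tan_nn hom (1/8)) hu) hmu) (mul_nonneg (mul_nonneg (tan_nn hom2 (1)) hu2) hmu2)))) (mul_nonneg (by norm_num) (mul_nonneg (mul_nonneg (tan_nn hom (1/4)) het)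 (mul_nonneg (mul_nonneg (tan_nn hom2 (3/4)) hu2) hmu2)))) (mul_nonneg (by norm_num) (mul_nonneg (mul_nonneg (mul_nonneg (tan_nn hom (1)) hu) hka) (mul_nonneg (tan_nn hom2 (7/8)) het2)))) (mul_nonneg (by norm_num) (mul_nonneg (mul_nonneg (tan_nn hom (1)) het) (mul_nonneg (tan_nn hom2 (7/8)) het2)))) (mul_nonneg (by norm_num) (mul_nonneg (mul_nonneg hbh hch) (mul_nonneg (tan_nn hom2 (7/8)) het2)))) (mul_nonneg (by norm_num) (mul_nonneg (mul_nonneg hka hbh) (mul_nonneg (mul_nonneg hu2 hmu2) hch2)))) (mul_nonneg (by norm_num) (mul_nonneg (mul_nonneg (mul_nonneg (tan_nn hom (1)) hu) hmu) (mul_nonneg (mul_nonneg (tan_nn hom2 (3/4)) hu2) hka2)))) (mul_nonneg (by norm_num) (mul_nonneg (mul_nonneg (tan_nn hom (3/8)) het) (mul_nonneg (mul_nonneg hu2 hmu2) hmu2)))) (mul_nonneg (by norm_num) (mul_nonneg (mul_nonneg (tan_nn hom (1)) het) (mul_nonneg hka2 hbh2)))) (mul_nonneg (by norm_num) (mul_nonneg (mul_nonneg hu hom) (mul_nonneg (mul_nonneg hu2 hmu2) hmu2)))) (mul_nonneg (by norm_num) (mul_nonneg (mul_nonneg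 (mul_nonneg (tan_nn hom (1)) hu) hka) (mul_nonneg (mul_nonneg (tan_nn hom2 (3/4)) hu2) hmu2)))) (mul_nonneg (by norm_num) (mul_nonneg (mul_nonneg (mul_nonneg hu hmu) hch) (mul_nonneg (tan_nn hom2 (1/2)) het2)))) (mul_nonneg (by norm_num) (mul_nonneg (mul_nonneg (tan_nn hom (3/8)) het) (mul_nonneg (mul_nonneg hu2 hmu2) hch2)))) (mul_nonneg (by norm_num) (mul_nonneg (mul_nonneg hu hbh) (mul_nonneg hka2 hbh2)))) (mul_nonneg (by norm_num) (mul_nonneg (mul_nonneg (tan_nn hom (3/4)) het) (mul_nonneg (sq_nonneg (y-(7/8))) hu2)))) (mul_nonneg (by norm_num) (mul_nonneg (mul_nonneg hu hbh) (mul_nonneg (mul_nonneg (tan_nn hom2 (1/2)) hu2) hmu2)))) (by norm_num : (0:ℝ) ≤ (75734050531/666887648000))) (mul_nonneg (by norm_num) (mul_nonneg (tan_nn hom (1)) (mul_nonneg (mul_nonneg (tan_nn hom2 (7/8)) hu2) hka2)))) (mul_nonneg (by norm_num) (mul_nonneg (mul_nonneg hka hbh) (mul_nonneg (mul_nonneg het2 het2) hmu2)))) (mul_nonneg (by norm_num) (mul_nonneg (mul_nonneg (mul_nonneg hu hmu) hch) (mul_nonneg (sq_nonneg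 (y-(3/8))) hu2)))) (mul_nonneg (by norm_num) (mul_nonneg (mul_nonneg (mul_nonneg (tan_nn hom (3/8)) hu) hmu) (mul_nonneg (mul_nonneg het2 het2) hmu2)))) (mul_nonneg (by norm_num) (mul_nonneg (mul_nonneg (mul_nonneg (tan_nn hom (1/4)) hu) hmu) (mul_nonneg hmu2 hbh2)))) (mul_nonneg (by norm_num) (mul_nonneg (mul_nonneg hu hbh) (mul_nonneg (tan_nn hom2 (5/8)) het2)))) (mul_nonneg (by norm_num) (mul_nonneg (mul_nonneg (mul_nonneg het het) hmu) (mul_nonneg hu2 hom2)))) (mul_nonneg (by norm_num) (mul_nonneg (mul_nonneg (tan_nn hom (3/8)) het) (mul_nonneg hmu2 hbh2)))) (mul_nonneg (by norm_num) (mul_nonneg (mul_nonneg (mul_nonneg (tan_nn hom (-1/4)) hu) hmu) (mul_nonneg (mul_nonneg hu2 hmu2) hmu2)))) (mul_nonneg (by norm_num) (mul_nonneg (mul_nonneg (mul_nonneg hu hmu) hmu) (mul_nonneg (mul_nonneg (tan_nn hom2 (-1/2)) hu2) hmu2)))) (mul_nonneg (by norm_num) (mul_nonneg (mul_nonneg (mul_nonneg (tan_nn hom (-1/2)) hu) hmu) (mul_nonneg (mul_nonneg (tan_nn hom2 (1)) hu2) hka2)))) (mul_nonneg (by norm_num)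 (mul_nonneg (mul_nonneg (mul_nonneg hu hu) hmu) (mul_nonneg (tan_nn hom2 (-3/8)) het2))))
  positivity

end Vale.Agent.Lib.P154
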