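import Vale.Agent.Lib.P154.Inv

/-!
Polynomials for the second kernel inequality, in centred coordinates.
-/

namespace Vale.Agent.Lib.P154

/-- `tau = D - 1` in centred coordinates -/
noncomputable def tauC (y1 y2 y3 v1 v2 v3 : ℝ) : ℝ := 3 * (y1 * v1 + y2 * v2 + y3 * v3)

/-- `Q - D^2/3` in centred coordinates -/
noncomputable def NqC (y1 y2 y3 v1 v2 v3 : ℝ) : ℝ :=
  ((1 / 3 + y1) * (1 + 3 * v1)) ^ 2 + ((1 / 3 + y2) * (1 + 3 * v2)) ^ 2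
    + ((1 / 3 + y3) * (1 + 3 * v3)) ^ 2 - (1 + tauC y1 y2 y3 v1 v2 v3) ^ 2 / 3

/-- the polynomial upper bound `J` in centred coordinates -/
noncomputable def JC (y1 y2 y3 v1 v2 v3 : ℝ) : ℝ :=
  NqC y1 y2 y3 v1 v2 v3 * (1 - 2 * tauC y1 y2 y3 v1 v2 v3)
    + 2 / 3 * (tauC y1 y2 y3 v1 v2 v3) ^ 2 * (3 + 2 * tauC y1 y2 y3 v1 v2 v3)

/-- second moment in centred coordinates -/
noncomputable def Ic2 (y1 y2 : ℝ) : ℝ := y1 ^ 2 + y2 ^ 2 + (-y1 - y2) ^ 2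

/-- third moment in centred coordinates -/
noncomputable def Ic3 (y1 y2 : ℝ) : ℝ := y1 ^ 3 + y2 ^ 3 + (-y1 - y2) ^ 3

/-- integrand -/
noncomputable def FF_Nq0 (y1 y2 y3 v1 v2 v3 : ℝ) : ℝ := NqC y1 y2 y3 v1 v2 v3

/-- its average -/
noncomputable def PP_Nq0 (A B C E : ℝ) : ℝ :=
  (1)*A + (1)*C + (3/2)*A*C

/-- integrand -/
noncomputable def FF_Nq1 (y1 y2 y3 v1 v2 v3 : ℝ) : ℝ := NqC y1 y2 y3 v1 v2 v3 * (tauC y1 y2 y3 v1 v2 v3) ^ 1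

/-- its average -/
noncomputable def PP_Nq1 (A B C E : ℝ) : ℝ :=
  (9)*B*C + (9)*A*E + (3)*A*C

/-- integrand -/
noncomputable def FF_Nq2 (y1 y2 y3 v1 v2 v3 : ℝ) : ℝ := NqC y1 y2 y3 v1 v2 v3 * (tauC y1 y2 y3 v1 v2 v3) ^ 2

/-- its average -/
noncomputable def PP_Nq2 (A B C E : ℝ) : ℝ :=
  (27)*B*E + (27/2)*B*C^2 + (9/2)*A*C^2 + (27/2)*A^2*E + (9/2)*A^2*C + (27/4)*A^2*C^2

/-- integrand -/
noncomputable def FF_Nq3 (y1 y2 y3 v1 v2 v3 : ℝ) : ℝ := NqC y1 y2 y3 v1 v2 v3 * (tauC y1 y2 y3 v1 v2 v3) ^ 3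

/-- its average -/
noncomputable def PP_Nq3 (A B C E : ℝ) : ℝ :=
  (81/2)*B*C*E + (81/2)*A*B*E + (243/4)*A*B*C*E + (243/4)*A*B*C^2 + (243/4)*A^2*C*E + (81/4)*A^2*C^2

/-- integrand -/
noncomputable def FF_J0 (y1 y2 y3 v1 v2 v3 : ℝ) : ℝ := NqC y1 y2 y3 v1 v2 v3 * JC y1 y2 y3 v1 v2 v3

/-- its average -/
noncomputable def PP_J0 (A B C E : ℝ) : ℝ :=
  (1)*C^2 + (54)*B*E + (12)*B*C + (-45)*B*C^2 + (12)*A*E + (4)*A*C + (-36)*A*C*E + (3)*A*C^2 + (-36)*A*B*C + (81)*A*B*C*E + (27)*A*B*C^2 + (1)*A^2 + (-45)*A^2*E + (3)*A^2*C + (27)*A^2*C*E + (27/4)*A^2*C^2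

/-- integrand -/
noncomputable def FF_J1 (y1 y2 y3 v1 v2 v3 : ℝ) : ℝ := NqC y1 y2 y3 v1 v2 v3 * (tauC y1 y2 y3 v1 v2 v3) ^ 1 * JC y1 y2 y3 v1 v2 v3

/-- its average -/
noncomputable def PP_J1 (A B C E : ℝ) : ℝ :=
  (18)*B*E + (36)*B*C^2 + (-54)*B*C^3 + (486)*B^2*C*E + (-162)*B^2*C^2 + (18)*A*C*E + (6)*A*C^2 + (-9)*A*C^3 + (486)*A*B*E^2 + (18)*A*B*C + (-243/2)*A*B*C*E + (-135/2)*A*B*C^2 + (81/2)*A*B*C^3 + (36)*A^2*E + (-162)*A^2*E^2 + (6)*A^2*C + (-135/2)*A^2*C*E + (27/2)*A^2*C^2 + (-54)*A^3*E + (-9)*A^3*C + (81/2)*A^3*C*E + (81/2)*A^3*C^3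

/-- integrand -/
noncomputable def FF_J2 (y1 y2 y3 v1 v2 v3 : ℝ) : ℝ := NqC y1 y2 y3 v1 v2 v3 * (tauC y1 y2 y3 v1 v2 v3) ^ 2 * JC y1 y2 y3 v1 v2 v3

/-- its average -/
noncomputable def PP_J2 (A B C E : ℝ) : ℝ :=
  (54)*B*C*E + (-81)*B*C^2*E + (27)*B*C^3 + (2916)*B^2*E^2 + (-243)*B^2*C*E + (81)*B^2*C^2 + (729)*B^2*C^2*E + (-729)*B^2*C^3 + (9/2)*A*C^3 + (54)*A*B*E + (-243)*A*B*E^2 + (729/2)*A*B*C*E + (108)*A*B*C^2 + (-243)*A*B*C^2*E + (-1053/4)*A*B*C^3 + (81)*A^2*E^2 + (108)*A^2*C*E + (45/2)*A^2*C^2 + (-243)*A^2*C^2*E + (-81)*A^2*B*E + (729)*A^2*B*E^2 + (-243)*A^2*B*C*E + (-243)*A^2*B*C^2 + (729)*A^2*B*C^2*E + (729/4)*A^2*B*C^3 + (27)*A^3*E + (-729)*A^3*E^2 + (9/2)*A^3*C + (-1053/4)*A^3*C*E + (729/4)*A^3*C^2*E + (162)*A^3*C^3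

/-- the lower bound for the average of the closure kernel -/
noncomputable def LBf (A B C E : ℝ) : ℝ :=
  1 / 9 * (1 - 9 / 2 * A + 9 * B) * (1 - 9 / 2 * C + 9 * E) * (1 + 27 / 2 * A * C - 162 * B * E) - 1 / 9
    + 13 / 30 * (PP_Nq0 A B C E - PP_Nq1 A B C E + 3 / 4 * PP_Nq2 A B C E - 1 / 4 * PP_Nq3 A B C E)
    + 1 / 15 * (PP_Nq0 A B C E - PP_Nq1 A B C E + 2 / 5 * PP_Nq2 A B C E)
    - 1 / 10 * (PP_J0 A B C E - PP_J1 A B C E + 2 / 5 * PP_J2 A B C E)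

/-- the polynomial of the second kernel inequality -/
noncomputable def P2f (A B C E : ℝ) : ℝ :=
  LBf A B C E - (1 - 147 / 50 * C) * (B - 1 / 10 * A ^ 2) - (1 - 3 / 2 * A) * (E - 7 / 50 * C ^ 2)
    - 1 / 25 * C ^ 2

end Vale.Agent.Lib.P154
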